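import Vale.Agent.P371EX.RS
import Vale.Agent.P371EP.HS
import Vale.Agent.P371EL.Kit

/-! The properties of the weight `r` of an approximant. -/

set_option autoImplicit false

namespace Vale.Agent.P371EG

open MeasureTheory Filter Topology Matrix Set
open Vale.Agent.P371 Vale.Agent.P371.G Vale.Agent.P371.PI Vale.Agent.P371.GII Vale.Agent.P371E Vale.Agent.P371EX
open Vale.Agent.P371EP (norm_cfc_le' abs_eigenvalues_le)
open Vale.Agent.P371EL (dg_mul)
open scoped ComplexOrder MatrixOrder Matrix.Norms.L2Operator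

variable {N : ℕ}

theorem norm_ext0 {n : ℕ} (L : ℕ) (a : Vec n) : ‖ext0 L a‖ = ‖a‖ := by
  rw [EuclideanSpace.norm_eq, EuclideanSpace.norm_eq, Fin.sum_univ_add]
  simp [ext0]

theorem re_inner_psd {M : Mat N N} (hM : M.PosSemidef) (e : Vec N) :
    0 ≤ (inner ℂ e (Matrix.toEuclideanLin M e) : ℂ).re := by
  have h := hM.re_dotProduct_nonneg e.ofLp
  rw [EuclideanSpace.inner_eq_star_dotProduct, dotProduct_comm]
  exact h

theorem norm_one_le : ‖(1 : Mat N N)‖ ≤ 1 := by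
  have h := l2_opNorm_conjTranspose_mul_self (1 : Mat N N)
  rw [conjTranspose_one, Matrix.mul_one] at h
  nlinarith [norm_nonneg (1 : Mat N N)]

theorem cfc_mul_eq {K : Mat N N} (hK : K.PosDef) (f g h : ℝ → ℝ)
    (e : ∀ x, 0 < x → f x * g x = h x) : cfc f K * cfc g K = cfc h K := by
  rw [← cfc_mul_fun]
  exact cfc_congr fun x hx => e x (spectrum_posDef hK hx)

theorem norm_dg_le (d : Fin N → ℝ) {C : ℝ} (hC : 0 ≤ C) (h : ∀ j, |d j| ≤ C) : ‖dg d‖ ≤ C := by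
  rw [dg, l2_opNorm_diagonal]
  refine (pi_norm_le_iff_of_nonneg hC).2 fun j => ?_
  rw [Complex.norm_real]
  exact h j

theorem sand_le {K G : Mat N N} (hK : K.PosDef) {B s : ℝ} (hB : 1 ≤ B) (hKB : ‖K‖ ≤ B)
    (h1 : (K - G).PosSemidef) (h2 : (K + G).PosSemidef) (f : ℝ → ℝ) (hs : 0 ≤ s)
    (hf : ∀ x, 0 < x → |f x * √x| ≤ s) : ‖cfc f K * G‖ ≤ s * B := by
  have hH := hK.isHermitian
  set S := cfc (fun x : ℝ => √x) K with hS
  set T := cfc (fun x : ℝ => (√x)⁻¹) K with hT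
  have hST : S * T = 1 := by
    rw [← cfc_one_fun hH]
    exact cfc_mul_eq hK _ _ _ fun x hx => mul_inv_cancel₀ (Real.sqrt_pos.2 hx).ne'
  have hTS : T * S = 1 := mul_eq_one_comm.1 hST
  have hSS : S * S = K := by
    conv_rhs => rw [← cfc_id_fun hH]
    exact cfc_mul_eq hK _ _ _ fun x hx => Real.mul_self_sqrt hx.le
  have hTH : Tᴴ = T := cfc_predicate (p := IsSelfAdjoint) _ K
  have hTKT : T * K * T = 1 := by
    rw [← hSS, ← Matrix.mul_assoc, hTS, Matrix.one_mul, hST]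
  have hn : ‖T * G * T‖ ≤ 1 := by
    refine (norm_F_le PosSemidef.one ⟨?_, ?_⟩).trans norm_one_le
    · have := h1.mul_mul_conjTranspose_same T
      rwa [hTH, Matrix.mul_sub, Matrix.sub_mul, hTKT] at this
    · have := h2.mul_mul_conjTranspose_same T
      rwa [hTH, Matrix.mul_add, Matrix.add_mul, hTKT] at this
  have e : cfc f K * G = cfc f K * S * (T * G * T) * S := by
    calc cfc f K * G = cfc f K * (S * T) * G * (T * S) := by
          rw [hST, hTS, Matrix.mul_one, Matrix.mul_one]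
      _ = _ := by simp only [Matrix.mul_assoc]
  have n1 : ‖cfc f K * S‖ ≤ s := by
    rw [hS, ← cfc_mul_fun]
    exact norm_cfc_le' hH _ hs fun i => hf _ (hK.eigenvalues_pos i)
  have n2 : ‖S‖ ≤ B := by
    refine norm_cfc_le' hH _ (by linarith) fun i => ?_
    rw [abs_of_nonneg (Real.sqrt_nonneg _), Real.sqrt_le_left (by linarith)]
    have := (le_abs_self _).trans ((abs_eigenvalues_le hH i).trans hKB)
    nlinarith
  rw [e]
  refine (norm_mul_le _ _).trans (mul_le_mul ((norm_mul_le _ _).trans ?_) n2 (norm_nonneg _) hs)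
  exact (mul_le_mul n1 hn (norm_nonneg _) hs).trans (mul_one s).le

/-- splitting of the weight, `γ ≤ 1` -/
theorem split_le {γ B τ : ℝ} (h1 : 1 / 2 < γ) (h2 : γ ≤ 1) (hB : 1 ≤ B) (hτ : 0 < τ)
    {K : Mat N N} (hK : K.PosDef) (hKB : ‖K‖ ≤ B) :
    ∃ r1 r2 : Mat N N, cfc (fun x : ℝ => x ^ (γ - 1)) K = r1 + r2 ∧
      ‖r1‖ ≤ ((τ / B) ^ (γ - 1 / 2)⁻¹) ^ (γ - 1) ∧ ∀ G : Mat N N,
      (K - G).PosSemidef → (K + G).PosSemidef → ‖r2 * G‖ ≤ τ := by
  have hB0 : 0 < B := by linarith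
  have hg : 0 < γ - 1 / 2 := by linarith
  obtain ⟨k, hk⟩ : ∃ k : ℝ, k = (τ / B) ^ (γ - 1 / 2)⁻¹ := ⟨_, rfl⟩
  have hk0 : 0 < k := by rw [hk]; positivity
  have hkp : k ^ (γ - 1 / 2) = τ / B := by
    rw [hk]
    exact Real.rpow_inv_rpow (by positivity) hg.ne'
  rw [← hk]
  refine ⟨cfc (fun x : ℝ => if k ≤ x then x ^ (γ - 1) else 0) K,
    cfc (fun x : ℝ => if k ≤ x then 0 else x ^ (γ - 1)) K, ?_, ?_, fun G g1 g2 => ?_⟩
  · rw [← cfc_add_fun]
    congr 1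
    funext x
    split_ifs <;> simp
  · refine norm_cfc_le' hK.isHermitian _ (by positivity) fun i => ?_
    split_ifs with h
    · rw [abs_of_nonneg (Real.rpow_nonneg (hk0.le.trans h) _)]
      exact Real.rpow_le_rpow_of_nonpos hk0 h (by linarith)
    · rw [abs_zero]
      positivity
  · refine (sand_le hK hB hKB g1 g2 _ (s := τ / B) (by positivity) fun x hx => ?_).trans
      (div_mul_cancel₀ τ hB0.ne').le
    split_ifs with h
    · rw [zero_mul, abs_zero]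
      positivity
    · rw [Real.sqrt_eq_rpow, ← Real.rpow_add hx, abs_of_nonneg (Real.rpow_nonneg hx.le _), ← hkp,
        show γ - 1 + 1 / 2 = γ - 1 / 2 by ring]
      exact Real.rpow_le_rpow hx.le (not_le.1 h).le hg.le

/-- the preimage, `γ ≤ 1` -/
theorem pre_le {γ B : ℝ} (h1 : 1 / 2 < γ) (h2 : γ ≤ 1) (hB : 1 ≤ B) {K : Mat N N}
    (hK : K.PosDef) (hKB : ‖K‖ ≤ B) (e : Vec N) :
    ∃ c : Vec N, Matrix.toEuclideanLin (cfc (fun x : ℝ => x ^ (γ - 1)) K) c = e ∧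
      ‖c‖ ≤ B * ‖e‖ ∧ 0 ≤ (inner ℂ e (Matrix.toEuclideanLin
        (cfc (fun x : ℝ => x ^ (γ - 1)) K * (K * K)) c) : ℂ).re := by
  have hH := hK.isHermitian
  have e1 : ∀ x : ℝ, 0 < x → x ^ (γ - 1) * x ^ (1 - γ) = 1 := fun x hx => by
    rw [← Real.rpow_add hx]
    simp
  refine ⟨Matrix.toEuclideanLin (cfc (fun x : ℝ => x ^ (1 - γ)) K) e, ?_, ?_, ?_⟩
  · rw [← tl_mul, cfc_mul_eq hK _ _ _ e1, cfc_one_fun hH]
    simp
  · refine (norm_tl _ _).trans (mul_le_mul_of_nonneg_right ?_ (norm_nonneg _))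
    refine norm_cfc_le' hH _ (by linarith) fun i => ?_
    have h0 := (hK.eigenvalues_pos i).le
    rw [abs_of_nonneg (Real.rpow_nonneg h0 _)]
    refine (Real.rpow_le_rpow h0 ((le_abs_self _).trans ((abs_eigenvalues_le hH i).trans hKB))
      (by linarith)).trans ?_
    exact Real.rpow_le_self_of_one_le hB (by linarith)
  · have e2 : K * K = cfc (fun x : ℝ => x * x) K := by
      rw [cfc_mul_fun (fun x => x) (fun x => x), cfc_id_fun hH]
    have e3 : cfc (fun x : ℝ => x ^ (γ - 1)) K * (K * K) * cfc (fun x : ℝ => x ^ (1 - γ)) K =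
        Kᴴ * K := by
      rw [hH.eq, e2, ← cfc_mul_fun]
      refine cfc_mul_eq hK _ _ _ fun x hx => ?_
      linear_combination x * x * e1 x hx
    rw [← tl_mul, e3]
    exact re_inner_psd (posSemidef_conjTranspose_mul_self K) e

/-- the norm of the weight, `1 < γ` -/
theorem norm_gt {γ A : ℝ} (h1 : 1 < γ) {lam : Fin N → ℝ} (hl : ∀ j, lam j < 0)
    (hA : (dg (fun j => (-lam j) ^ ((γ - 1) / 2)) * dg (fun j => (-lam j) ^ ((γ - 1) / 2)) *
      Lam lam).trace.re ≤ A) : ‖dg fun j => (-lam j) ^ ((γ - 1) / 2)‖ ≤ 1 + |A| := by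
  have hp : ∀ j, 0 < -lam j := fun j => neg_pos.2 (hl j)
  rw [Lam, dg_mul, dg_mul, dg, trace_diagonal, Complex.re_sum] at hA
  simp only [Complex.ofReal_re] at hA
  refine norm_dg_le _ (by positivity) fun j => ?_
  have h0 : ∀ i, 0 ≤ (-lam i) ^ ((γ - 1) / 2) := fun i => Real.rpow_nonneg (hp i).le _
  have h2 := (Finset.single_le_sum (f := fun i => (-lam i) ^ ((γ - 1) / 2) *
    (-lam i) ^ ((γ - 1) / 2) * -lam i) (fun i _ => mul_nonneg (mul_nonneg (h0 i) (h0 i)) (hp i).le)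
    (Finset.mem_univ j)).trans (hA.trans (le_abs_self A))
  rw [abs_of_nonneg (h0 j)]
  rcases le_total (-lam j) 1 with h | h
  · have := Real.rpow_le_one (hp j).le h (show 0 ≤ (γ - 1) / 2 by linarith)
    linarith [abs_nonneg A]
  · have h3 := Real.one_le_rpow h (show 0 ≤ (γ - 1) / 2 by linarith)
    have h4 := mul_le_mul (le_mul_of_one_le_right (h0 j) h3) h zero_le_one
      (mul_nonneg (h0 j) (h0 j))
    linarith

/-- the preimage, `1 < γ` -/
theorem pre_gt {n L : ℕ} {d lam : Fin (n + L) → ℝ} {d0 : Fin n → ℝ} (hl : ∀ j, lam j < 0)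
    (hd : ∀ j, 0 < d j) (h0 : ∀ j, d (Fin.castAdd L j) = d0 j) {A σ : ℝ} (hA : ‖dg d‖ ≤ A)
    {K : Mat (n + L) (n + L)} (hσ : hs (K * K - Lam lam) ≤ σ) (a : Vec n) :
    ∃ c : Vec (n + L), Matrix.toEuclideanLin (dg d) c = ext0 L a ∧
      ‖c‖ ≤ (∑ j, |(d0 j)⁻¹|) * ‖a‖ ∧ -(A * (∑ j, |(d0 j)⁻¹|) * √σ * ‖a‖ ^ 2) ≤
        (inner ℂ (ext0 L a) (Matrix.toEuclideanLin (dg d * (K * K)) c) : ℂ).re := by
  obtain ⟨w, hw⟩ : ∃ w : Fin (n + L) → ℝ, w = Fin.append (fun j => (d0 j)⁻¹) 0 := ⟨_, rfl⟩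
  have hC : 0 ≤ ∑ j, |(d0 j)⁻¹| := Finset.sum_nonneg fun _ _ => abs_nonneg _
  have hw0 : ∀ j, 0 ≤ w j := fun j => by
    rw [hw]
    refine Fin.addCases (fun i => ?_) (fun i => ?_) j
    · rw [Fin.append_left, ← h0]
      exact (inv_pos.2 (hd _)).le
    · rw [Fin.append_right]
      rfl
  have hn : ‖dg w‖ ≤ ∑ j, |(d0 j)⁻¹| := by
    refine norm_dg_le _ hC fun j => ?_
    rw [hw]
    refine Fin.addCases (fun i => ?_) (fun i => ?_) j
    · rw [Fin.append_left]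
      exact Finset.single_le_sum (f := fun j => |(d0 j)⁻¹|) (fun _ _ => abs_nonneg _)
        (Finset.mem_univ i)
    · rw [Fin.append_right, Pi.zero_apply, abs_zero]
      exact hC
  have hc : ‖Matrix.toEuclideanLin (dg w) (ext0 L a)‖ ≤ (∑ j, |(d0 j)⁻¹|) * ‖a‖ := by
    refine (norm_tl _ _).trans ?_
    rw [norm_ext0]
    exact mul_le_mul_of_nonneg_right hn (norm_nonneg _)
  refine ⟨_, ?_, hc, ?_⟩
  · rw [← tl_mul, dg_mul, hw]
    ext j
    rw [dg, Matrix.toLpLin_apply]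
    simp only [mulVec_diagonal, ext0]
    refine Fin.addCases (fun i => ?_) (fun i => ?_) j
    · rw [Fin.append_left, ← h0, mul_inv_cancel₀ (hd _).ne', Complex.ofReal_one, one_mul]
    · rw [Fin.append_right, Fin.append_right, Pi.zero_apply, Pi.zero_apply, mul_zero]
  · have e : dg d * (K * K) = dg d * (K * K - Lam lam) + dg d * Lam lam := by
      rw [← Matrix.mul_add, sub_add_cancel]
    rw [e, map_add, LinearMap.add_apply, inner_add_right, Complex.add_re, ← tl_mul (dg d * Lam lam)]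
    have p1 : (dg d * Lam lam * dg w).PosSemidef := by
      rw [Lam, dg_mul, dg_mul, dg]
      refine posSemidef_diagonal_iff.2 fun j => ?_
      exact_mod_cast mul_nonneg (mul_nonneg (hd j).le (neg_pos.2 (hl j)).le) (hw0 j)
    have p2 := re_inner_psd p1 (ext0 L a)
    have p3 := (abs_le.1 (abs_re_inner (ext0 L a) (Matrix.toEuclideanLin
      (dg d * (K * K - Lam lam)) (Matrix.toEuclideanLin (dg w) (ext0 L a))))).1
    have p4 : ‖dg d * (K * K - Lam lam)‖ ≤ A * √σ :=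
      (norm_mul_le _ _).trans (mul_le_mul hA (Real.le_sqrt_of_sq_le ((norm_sq_le_hs _).trans hσ))
        (norm_nonneg _) ((norm_nonneg _).trans hA))
    have p5 := mul_le_mul_of_nonneg_left ((norm_tl (dg d * (K * K - Lam lam)) _).trans
      (mul_le_mul p4 hc (norm_nonneg _) ((norm_nonneg _).trans p4))) (norm_nonneg a)
    rw [norm_ext0] at p3
    linarith

theorem rr : RR := by
  intro γ g1 _ m n W lam0 _
  obtain ⟨B, hB⟩ : ∃ B : ℝ, B = |Bd γ W| + 1 := ⟨_, rfl⟩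
  obtain ⟨A, hA⟩ : ∃ A : ℝ, A = 1 + |2 * (Cg γ * II γ W + 1)| := ⟨_, rfl⟩
  obtain ⟨D, hD⟩ : ∃ D : ℝ, D = ∑ j, |((-lam0 j) ^ ((γ - 1) / 2))⁻¹| := ⟨_, rfl⟩
  have hB1 : 1 ≤ B := by rw [hB]; linarith [abs_nonneg (Bd γ W)]
  have hA0 : 0 ≤ A := by rw [hA]; positivity
  have hD0 : 0 ≤ D := hD ▸ Finset.sum_nonneg fun _ _ => abs_nonneg _
  have hAD : 0 ≤ A * D := mul_nonneg hA0 hD0
  refine ⟨B + D + A * D, by linarith, fun τ hτ =>
    ⟨A + ((τ / B) ^ (γ - 1 / 2)⁻¹) ^ (γ - 1), by positivity, ?_⟩⟩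
  intro L lam f f' R σ ε V K r F hX hl h0
  have hKB : ‖K‖ ≤ B := by
    rw [hB]
    linarith [hX.Kn, le_abs_self (Bd γ W)]
  rcases hX.rdef with ⟨g2, hr⟩ | ⟨g2, hr, hσ⟩
  · subst hr
    obtain ⟨r1, r2, e, n1, n2⟩ := split_le g1 g2 hB1 hτ hX.Kp hKB
    refine ⟨⟨r1, r2, e, by linarith, n2⟩, fun a => ?_⟩
    obtain ⟨c, c1, c2, c3⟩ := pre_le g1 g2 hB1 hX.Kp hKB (ext0 L a)
    rw [norm_ext0] at c2
    refine ⟨c, c1, c2.trans (mul_le_mul_of_nonneg_right (by linarith) (norm_nonneg _)),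
      le_trans (neg_nonpos.2 ?_) c3⟩
    positivity
  · have hb := hX.rb
    subst hr
    have hn := norm_gt g2 hl hb
    rw [← hA] at hn
    refine ⟨⟨_, 0, (add_zero _).symm, hn.trans (le_add_of_nonneg_right (by positivity)),
      fun G _ _ => by rw [Matrix.zero_mul, norm_zero]; exact hτ.le⟩, fun a => ?_⟩
    obtain ⟨c, c1, c2, c3⟩ := pre_gt (d0 := fun j => (-lam0 j) ^ ((γ - 1) / 2)) hl
      (fun j => Real.rpow_pos_of_pos (neg_pos.2 (hl j)) _) (fun j => by rw [h0]) hn hσ a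
    rw [← hD] at c2 c3
    refine ⟨c, c1, c2.trans (mul_le_mul_of_nonneg_right (by linarith) (norm_nonneg _)),
      le_trans (neg_le_neg ?_) c3⟩
    gcongr
    linarith

end Vale.Agent.P371EG
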