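import Vale.Agent.P371E.Spec
import Mathlib.Analysis.Distribution.AEEqOfIntegralContDiff
import Mathlib.MeasureTheory.Integral.IntegralEqImproper
import Mathlib.MeasureTheory.Integral.IntervalIntegral.LebesgueDifferentiationThm

/-! The eigenvalue equation almost everywhere. -/

set_option autoImplicit false

namespace Vale.Agent.P371EG

open MeasureTheory Filter Topology Matrix Set
open Vale.Agent.P371 Vale.Agent.P371E
open scoped Matrix.Norms.L2Operator ContDiff

theorem locInt_apply {m : ℕ} {W : ℝ → Mat m m} {f : ℝ → Vec m} (hW : LocallyIntegrable W volume)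
    (hf : Continuous f) :
    LocallyIntegrable (fun x => Matrix.toEuclideanLin (W x) (f x)) volume := by
  have e : (fun x => Matrix.toEuclideanLin (W x) (f x)) = fun x => ∑ j, (f x j) •
      (LinearMap.toContinuousLinearMap ((LinearMap.applyₗ (EuclideanSpace.single j (1 : ℂ))) ∘ₗ
        (Matrix.toEuclideanLin (𝕜 := ℂ) (m := Fin m) (n := Fin m)).toLinearMap)) (W x) := by
    funext x
    conv_lhs => rw [← (EuclideanSpace.basisFun (Fin m) ℂ).sum_repr (f x)]
    rw [map_sum]
    refine Finset.sum_congr rfl fun j _ => ?_
    rw [map_smul]
    simp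
  rw [e]
  refine locallyIntegrable_finsetSum _ fun j _ => LocallyIntegrable.continuous_smul (by fun_prop) ?_
  rw [locallyIntegrable_iff] at hW ⊢
  exact fun k hk => ContinuousLinearMap.integrable_comp _ (hW k hk)

theorem inner_test {m : ℕ} {φ : ℝ → ℝ} {F : ℝ → Vec m} (e : Vec m)
    (h : Integrable (fun x => φ x • F x) volume) :
    ∫ x, (inner ℂ (φ x • e) (F x) : ℂ) = inner ℂ e (∫ x, φ x • F x) := by
  rw [← integral_inner h]
  refine integral_congr_ae (Eventually.of_forall fun x => ?_)
  simp only [inner_smul_left_eq_smul, inner_smul_right_eq_smul]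

theorem test_H1 {m : ℕ} {φ : ℝ → ℝ} (h1 : ContDiff ℝ ∞ φ) (h2 : HasCompactSupport φ) (e : Vec m) :
    IsH1 (fun x => φ x • e) (fun x => deriv φ x • e) := by
  have hc : Continuous (deriv φ) := h1.continuous_deriv (by simp)
  refine ⟨(h1.continuous.smul continuous_const).memLp_of_hasCompactSupport h2.smul_right,
    (hc.smul continuous_const).memLp_of_hasCompactSupport h2.deriv.smul_right, fun a b => ?_⟩
  rw [intervalIntegral.integral_smul_const, intervalIntegral.integral_deriv_eq_sub
    (fun x _ => h1.differentiable (by simp) x) (hc.intervalIntegrable _ _), sub_smul]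

theorem eig : EIG := by
  intro m W lam f f' u v hW hE hf hu hv
  have cf : Continuous f := continuous_iff_continuousAt.2 fun x => (hf x).continuousAt
  have cu : Continuous u := continuous_iff_continuousAt.2 fun x => (hu x).continuousAt
  have hfu : f' =ᵐ[volume] u := by
    filter_upwards [LocallyIntegrable.ae_hasDerivAt_integral
      (hE.isH1.memLp_deriv.locallyIntegrable (by norm_num))] with x hx
    have e : (fun y => ∫ t in (0 : ℝ)..y, f' t) = fun y => f y - f 0 :=
      funext fun y => (hE.isH1.ftc 0 y).symm
    have h := hx 0
    rw [e] at h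
    exact h.unique ((hf x).sub_const _)
  have l1 := locInt_apply hW cf
  have l2 : LocallyIntegrable v volume := hv.locallyIntegrable
  have l3 : LocallyIntegrable f volume := cf.locallyIntegrable
  have key := ae_eq_zero_of_integral_contDiff_smul_eq_zero
    (f := fun x => Matrix.toEuclideanLin (W x) (f x) + (v x + (lam : ℂ) • f x))
    (l1.add (hv.add (cf.const_smul (lam : ℂ))).locallyIntegrable) (fun φ h1 h2 => by
      have hc : Continuous (deriv φ) := h1.continuous_deriv (by simp)
      have i1 := l1.integrable_smul_left_of_hasCompactSupport h1.continuous h2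
      have i2 := l2.integrable_smul_left_of_hasCompactSupport h1.continuous h2
      have i3 := l3.integrable_smul_left_of_hasCompactSupport h1.continuous h2
      have i4 := (cu.locallyIntegrable (μ := volume)).integrable_smul_left_of_hasCompactSupport hc
        h2.deriv
      have i5 := (cu.locallyIntegrable (μ := volume)).integrable_smul_left_of_hasCompactSupport
        h1.continuous h2
      have ibp : ∫ x, φ x • v x = -∫ x, deriv φ x • u x :=
        integral_bilinear_hasDerivAt_right_eq_neg_left_of_integrable
          (L := ContinuousLinearMap.lsmul ℝ ℝ)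
          (fun x _ => (h1.differentiable (by simp) x).hasDerivAt) (fun x _ => hu x) i2 i4 i5
      have e1 : ∫ x, φ x • (Matrix.toEuclideanLin (W x) (f x) + (v x + (lam : ℂ) • f x)) =
          (∫ x, φ x • Matrix.toEuclideanLin (W x) (f x)) +
            ((∫ x, φ x • v x) + (lam : ℂ) • ∫ x, φ x • f x) := by
        have i6 : Integrable (fun x => (lam : ℂ) • φ x • f x) volume := i3.smul (lam : ℂ)
        have i7 : Integrable (fun x => φ x • v x + (lam : ℂ) • φ x • f x) volume := i2.add i6
        rw [← integral_smul, ← integral_add i2 i6, ← integral_add i1 i7]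
        refine integral_congr_ae (Eventually.of_forall fun x => ?_)
        simp only [smul_add, smul_comm (φ x) (lam : ℂ)]
      rw [e1]
      refine ext_inner_left ℂ fun e => ?_
      have h := hE.form_eq _ _ (test_H1 h1 h2 e)
      have e2 : ∫ x, (inner ℂ (deriv φ x • e) (f' x) : ℂ) =
          ∫ x, (inner ℂ (deriv φ x • e) (u x) : ℂ) :=
        integral_congr_ae (by filter_upwards [hfu] with x hx; rw [hx])
      rw [e2, inner_test e i4, inner_test e i1, inner_test e i3] at h
      rw [inner_add_right, inner_add_right, inner_smul_right, ibp, inner_neg_right,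
        inner_zero_right]
      linear_combination -h)
  filter_upwards [key] with x hx
  rw [eq_neg_of_add_eq_zero_left hx]
  abel

end Vale.Agent.P371EG
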